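import Vale.Agent.P352X.R.GRP.A
import Vale.Agent.P352X.ST.Syn
import Vale.Agent.P352X.TR
import Vale.Agent.P352.BW.T.T1

/-!
# P352X, row GRP: the action on the fields
-/

set_option linter.all false

noncomputable section

open MeasureTheory Filter Topology Set
open scoped SchwartzMap ComplexConjugate LineDeriv

namespace Vale.Agent.P352X.Grp

open Vale.Agent.P352 Vale.Agent.P352.GF Vale.Agent.P352.BW
open Vale.Agent.P352.H246 Vale.Agent.P352.H496 Vale.Agent.P352.H755 Vale.Agent.P352.H15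
open UniformSpace (Completion)
open Br

/-! ### test functions -/

lemma pd_ev (m : Ix) (g : Sch) : pd m (ev g) = ev (∂_{(bas m 1 : V)} g) := by
  funext x
  have e : (fun t : ℝ => ev g fun n => x n + bas m t n) = fun t : ℝ => g (x + t • bas m 1) := by
    funext t
    show g _ = g _
    congr 1
    funext n
    simp [bas]
  rw [pd, e]
  exact (SchwartzMap.lineDerivOp_apply _ g x).symm

lemma test_pd (m : Ix) {f : Fn} (hf : GF.IsTest f) : GF.IsTest (pd m f) := by
  obtain ⟨g, rfl⟩ := hf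
  exact ⟨_, (pd_ev m g).symm⟩

/-- the pull back of a Schwartz function by a similitude -/
def simS {s : ℝ} {L : Ix → V} (hs : 0 < s) (hL : IsLor L) (a : V) : Sch →L[ℂ] Sch :=
  SchwartzMap.compCLMOfContinuousLinearEquiv ℂ (H755.simE s L hs hL).toContinuousLinearEquiv ∘L
    SchwartzMap.compSubConstCLM ℂ (-a)

lemma simS_apply {s : ℝ} {L : Ix → V} (hs : 0 < s) (hL : IsLor L) (a : V) (g : Sch) (x : V) :
    simS hs hL a g x = g (sim s L a x) := by
  show g (H755.simE s L hs hL x - -a) = _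
  rw [H755.simE_apply, HM.sim_at s L a, sub_neg_eq_add]

lemma test_sim {s : ℝ} {L : Ix → V} (hs : 0 < s) (hL : IsLor L) (a : V) {f : Fn}
    (hf : GF.IsTest f) : GF.IsTest fun x => f (sim s L a x) := by
  obtain ⟨g, rfl⟩ := hf
  exact ⟨simS hs hL a g, funext (simS_apply hs hL a g)⟩

lemma ev_sum {ι : Type*} (t : Finset ι) (c : ι → ℂ) (g : ι → Sch) :
    ev (∑ i ∈ t, c i • g i) = fun x => ∑ i ∈ t, c i * ev (g i) x := by
  funext x
  simp [ev]

lemma test_sum {ι : Type*} (t : Finset ι) (c : ι → ℂ) {f : ι → Fn} (hf : ∀ i, GF.IsTest (f i)) :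
    GF.IsTest fun x => ∑ i ∈ t, c i * f i x := by
  choose g hg using hf
  exact ⟨∑ i ∈ t, c i • g i, by simp only [ev_sum, hg]⟩

lemma test_dv (h : V) {f : Fn} (hf : GF.IsTest f) : GF.IsTest (dv h f) :=
  test_sum _ _ fun m => test_pd m hf

/-- linear maps on test functions as continuous linear maps on Schwartz space -/
def toC {G : Type*} [NormedAddCommGroup G] [NormedSpace ℂ G] (u : Fn → G)
    (lin : ∀ (f g : Fn) (c : ℂ), GF.IsTest f → GF.IsTest g →
      u (fun x => f x + c * g x) = u f + c • u g) (cont : Continuous fun g => u (ev g)) :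
    Sch →L[ℂ] G where
  toFun g := u (ev g)
  map_add' f g := by
    have := lin (ev f) (ev g) 1 ⟨f, rfl⟩ ⟨g, rfl⟩
    simp only [one_mul, one_smul] at this
    exact this
  map_smul' c g := by
    have h0 := lin (ev 0) (ev 0) 1 ⟨0, rfl⟩ ⟨0, rfl⟩
    have h1 := lin (ev 0) (ev g) c ⟨0, rfl⟩ ⟨g, rfl⟩
    have e0 : (fun x => ev 0 x + 1 * ev 0 x) = ev 0 := by
      funext x
      simp [ev]
    have e1 : (fun x => ev 0 x + c * ev g x) = ev (c • g) := by
      funext x
      simp [ev]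
    rw [e0, one_smul, left_eq_add] at h0
    rw [e1, h0, zero_add] at h1
    exact h1
  cont := cont

variable {D : Type*} [NormedAddCommGroup D] [InnerProductSpace ℂ D] {Q : Theory D}
  {A : (V → V) → D → D} {T : Ix → Ix → Fld D} {B : Fld D}

/-- a field applied to a vector -/
def fC (hB : Q.fld B) (v : D) : Sch →L[ℂ] D :=
  toC (fun f => B f v) (fun f g c hf hg => Q.lin B f g c v hB hf hg) (Q.cont B v hB)

lemma fC_apply (hB : Q.fld B) (v : D) (g : Sch) : fC hB v g = B (ev g) v := rfl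

lemma fld_sum (hB : Q.fld B) {ι : Type*} (t : Finset ι) (c : ι → ℂ) {f : ι → Fn}
    (hf : ∀ i, GF.IsTest (f i)) (v : D) :
    B (fun x => ∑ i ∈ t, c i * f i x) v = ∑ i ∈ t, c i • B (f i) v := by
  choose g hg using hf
  have h := map_sum (fC hB v) (fun i => c i • g i) t
  simpa only [map_smul, fC_apply, ev_sum, hg] using h

lemma fld_smul (hB : Q.fld B) (c : ℂ) {f : Fn} (hf : GF.IsTest f) (v : D) :
    B (fun x => c * f x) v = c • B f v := by
  obtain ⟨g, rfl⟩ := hf
  exact map_smul (fC hB v) c g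

lemma T_fld (hT : Q.IsStress T) (m n : Ix) : Q.fld (T m n) := Q.bose_fld _ (hT.bose m n)

lemma T_hk (hT : Q.IsStress T) (h k : V) {f : Fn} (hf : GF.IsTest f) (v : D) :
    ∑ m, ∑ n, T m n (hk h k f m n) v =
      ∑ m, ∑ n, ((eta m * h m * (eta n * k n) : ℝ) : ℂ) • T m n f v :=
  Finset.sum_congr rfl fun m _ => Finset.sum_congr rfl fun n _ => fld_smul (T_fld hT m n) _ hf v

lemma sum4 {M : Type*} [AddCommMonoid M] (F : Ix → Ix → Ix → Ix → M) :
    ∑ m, ∑ n, ∑ k, ∑ l, F m n k l = ∑ k, ∑ l, ∑ m, ∑ n, F m n k l := by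
  calc _ = ∑ m, ∑ k, ∑ n, ∑ l, F m n k l := Finset.sum_congr rfl fun _ _ => Finset.sum_comm
    _ = ∑ k, ∑ m, ∑ l, ∑ n, F m n k l := Finset.sum_comm.trans (Finset.sum_congr rfl fun _ _ =>
      Finset.sum_congr rfl fun _ _ => Finset.sum_comm)
    _ = _ := Finset.sum_congr rfl fun _ _ => Finset.sum_comm

lemma ten (hT : Q.IsStress T) {s : ℝ} {L : Ix → V} (a h k : V) {f : Fn} (v : D) (hs : 0 < s)
    (hL : IsLor L) (hf : GF.IsTest f) :
    Q.U s L a (∑ m, ∑ n, T m n (hk h k (fun x => f (sim s L a x)) m n) v) =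
      ∑ m, ∑ n, T m n (hk (sim 1 L 0 h) (sim 1 L 0 k) f m n) (Q.U s L a v) := by
  rw [T_hk hT _ _ hf, T_hk hT _ _ (test_sim hs hL a hf), ← ueI_apply hs hL]
  simp only [hT.cov _ _ s L a f v hs hL hf, map_sum, map_smul, ueI_apply, Finset.smul_sum,
    smul_smul]
  rw [sum4]
  refine Finset.sum_congr rfl fun m _ => Finset.sum_congr rfl fun n _ => ?_
  simp only [← Finset.sum_smul]
  congr 1
  rw [← md_L hL m h, ← md_L hL n k, GF.mdot, GF.mdot, Finset.sum_mul_sum]
  push_cast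
  exact Finset.sum_congr rfl fun i _ => Finset.sum_congr rfl fun j _ => by ring

lemma th (hT : Q.IsStress T) {s : ℝ} {L : Ix → V} (a : V) {f : Fn} (v : D) (hs : 0 < s)
    (hL : IsLor L) (hf : GF.IsTest f) :
    Q.U s L a (GF.tr T (fun x => f (sim s L a x)) v) = GF.tr T f (Q.U s L a v) := by
  rw [GF.tr, GF.tr, ← ueI_apply hs hL]
  simp only [hT.cov _ _ s L a f v hs hL hf, map_sum, map_smul, ueI_apply, Finset.smul_sum,
    smul_smul]
  rw [Finset.sum_comm]
  refine Finset.sum_congr rfl fun k _ => ?_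
  rw [Finset.sum_comm]
  simp only [← Finset.sum_smul]
  have e : ∀ l, ∑ m, (eta m : ℂ) * ((L k m : ℂ) * L l m) = (bas k (eta k) l : ℝ) := fun l => by
    rw [← hL.1 k l, GF.mdot]
    push_cast
    exact Finset.sum_congr rfl fun j _ => by ring
  simp only [e, bas]
  simp [apply_ite Complex.ofReal, ite_smul]

lemma cons (hT : Q.IsStress T) (h : V) {f : Fn} (v : D) (hf : GF.IsTest f) :
    ∑ m, ∑ n, T m n (hk va h (dv vb f) m n) v + ∑ m, ∑ n, T m n (hk vb h (dv va f) m n) v -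
      ∑ i, ∑ m, ∑ n, T m n (hk (ex i) h (dv (ex i) f) m n) v = 0 := by
  have e : ∀ y m n, T m n (dv y f) v = ∑ k, (y k : ℂ) • T m n (pd k f) v := fun y m n =>
    fld_sum (T_fld hT m n) _ _ (fun k => test_pd k hf) v
  have h0 := fun n => hT.conserved n f v hf
  simp only [T_hk hT _ _ (test_dv _ hf), e]
  have h1 := h0 0
  have h2 := h0 1
  have h3 := h0 2
  have h4 := h0 3
  simp [Fin.sum_univ_four, va, vb, ex, tv, pt, e2, eta, o] at h1 h2 h3 h4 ⊢
  linear_combination (norm := module) (h 0 : ℂ) • h1 - (h 1 : ℂ) • h2 - (h 2 : ℂ) • h3 -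
    (h 3 : ℂ) • h4

lemma trace (hT : Q.IsStress T) {f : Fn} (v : D) (hf : GF.IsTest f) : GF.tr T f v =
    (2 : ℂ) • ∑ m, ∑ n, T m n (hk va vb f m n) v - ∑ i, ∑ m, ∑ n, T m n (hk (ex i) (ex i) f m n) v := by
  have h1 := hT.symm 0 1 f v hf
  simp only [T_hk hT _ _ hf, GF.tr]
  simp [Fin.sum_univ_four, va, vb, ex, tv, pt, e2, eta, o]
  linear_combination (norm := module) -h1

/-! ### the potential -/

variable {l : Fn → Completion D}

lemma pot (R : Rep Q A) (hl : IsPot Q T l) {s : ℝ} {L : Ix → V} (a : V) {f : Fn} (hs : 0 < s)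
    (hL : IsLor L) (hf : GF.IsTest f) :
    Ug Q s L a (l fun x => f (sim s L a x)) = ((s ^ 2)⁻¹ : ℝ) • l f := by
  have h1 : ∀ w, inner ℂ (Ug Q s L a w) (l f) =
      (s ^ 2 : ℝ) * inner ℂ w (l fun x => f (sim s L a x)) := fun w =>
    Completion.induction_on w (isClosed_eq (by fun_prop) (by fun_prop)) fun v => by
      rw [coe hs hL, hl.cov s L a f v hs hL hf]
  refine ext_inner_left ℂ fun z => ?_
  have h2 : z = Ug Q s L a (star (Ug Q s L a) z) := by
    rw [← mul_apply_eq_comp, (uni R s L a).2]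
    rfl
  have h3 : ((s ^ 2 : ℝ) : ℂ) ≠ 0 := Complex.ofReal_ne_zero.2 (by positivity)
  rw [h2, ug_inner hs hL, ← Complex.coe_smul, inner_smul_right, h1, Complex.ofReal_inv,
    inv_mul_cancel_left₀ h3]

/-! ### one point functions -/

lemma inv_zero (Λ : Sch →L[ℂ] ℂ) (κ : ℂ) (hκ : κ ≠ 16) (h1 : ∀ a g, Λ (ST.tsl a g) = Λ g)
    (h2 : ∀ g, Λ g = κ * Λ (simS two_pos H496.isLor_one 0 g)) (g : Sch) : Λ g = 0 := by
  obtain ⟨φ, hφ⟩ := ST.exists_ai (volume : Measure V)
  have h3 : ∀ f, Λ f = (∫ x, f x) * Λ (φ 0) := fun f => by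
    have h4 := (ST.clm_cnv (μ := volume) Λ f (φ 0)).2
    have h5 := (ST.clm_cnv (μ := volume) Λ (φ 0) f).2
    rw [ST.cnv_comm, h4] at h5
    simp only [h1, integral_smul_const, hφ.one 0, one_smul] at h5
    exact h5.symm
  have h4 : ∫ x, simS two_pos H496.isLor_one 0 (φ 0) x = 16⁻¹ := by
    simp only [simS_apply, sim_s 2, H26.sim_one0]
    rw [Measure.integral_comp_smul volume (fun x => φ 0 x) 2, hφ.one 0]
    norm_num
  have h5 := h2 (φ 0)
  rw [h3 (simS _ _ _ _), h4] at h5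
  have h6 : (16 - κ) * Λ (φ 0) = 0 := by linear_combination 16 * h5
  rw [h3, (mul_eq_zero.1 h6).resolve_left (sub_ne_zero.2 hκ.symm), mul_zero]

lemma tsl_sim (a : V) (g : Sch) : (fun x => ev (ST.tsl a g) (sim 1 GF.one a x)) = ev g := by
  funext x
  show g (_ - a) = g x
  rw [HM.sim_tr, add_sub_cancel_right]

lemma perp (hT : Q.IsStress T) (m n : Ix) {f : Fn} (hf : GF.IsTest f) :
    inner ℂ Q.vac (T m n f Q.vac) = 0 := by
  obtain ⟨g, rfl⟩ := hf
  have key : ∀ s a (g : Sch), 0 < s → inner ℂ Q.vac (T m n (ev g) Q.vac) =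
      inner ℂ Q.vac (T m n (fun x => ev g (sim s GF.one a x)) Q.vac) := fun s a g hs => by
    have h1 := hT.cov m n s GF.one a (ev g) Q.vac hs H496.isLor_one ⟨g, rfl⟩
    rw [Q.U_vac s _ a hs H496.isLor_one] at h1
    simp [GF.one, bas, apply_ite Complex.ofReal, ite_smul] at h1
    rw [h1, ← Q.U_inner s GF.one a Q.vac (T m n _ _) hs H496.isLor_one,
      Q.U_vac s _ a hs H496.isLor_one]
  refine inv_zero (innerSL ℂ Q.vac ∘L fC (T_fld hT m n) Q.vac) 1 (by norm_num) (fun a g => ?_)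
    (fun g => ?_) g
  · exact (key 1 a _ one_pos).trans (by rw [tsl_sim]; rfl)
  · rw [one_mul]
    refine (key 2 0 g two_pos).trans ?_
    rw [show (fun x => ev g (sim 2 GF.one 0 x)) = ev (simS two_pos H496.isLor_one 0 g) from
      (funext (simS_apply _ _ _ g)).symm]
    rfl

lemma perpl (hl : IsPot Q T l) {f : Fn} (hf : GF.IsTest f) : inner ℂ (om Q) (l f) = 0 := by
  obtain ⟨g, rfl⟩ := hf
  have key : ∀ s a (g : Sch), 0 < s → inner ℂ (om Q) (l (ev g)) =
      (s ^ 2 : ℝ) * inner ℂ (om Q) (l fun x => ev g (sim s GF.one a x)) := fun s a g hs => by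
    have h1 := hl.cov s GF.one a (ev g) Q.vac hs H496.isLor_one ⟨g, rfl⟩
    rwa [Q.U_vac s _ a hs H496.isLor_one] at h1
  refine inv_zero (innerSL ℂ (om Q) ∘L toC l hl.lin hl.cont) 4 (by norm_num) (fun a g => ?_)
    (fun g => ?_) g
  · exact (key 1 a _ one_pos).trans (by rw [tsl_sim]; simp; rfl)
  · refine (key 2 0 g two_pos).trans ?_
    rw [show (fun x => ev g (sim 2 GF.one 0 x)) = ev (simS two_pos H496.isLor_one 0 g) from
      (funext (simS_apply _ _ _ g)).symm]
    norm_num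
    rfl

/-! ### affiliation -/

variable {M : VonNeumannAlgebra (Completion D)} {X X' Y Y' : D → D}

lemma afs_one : BW.T.Afs M (fun v => v) fun v => v := ⟨fun _ _ => rfl, fun _ _ _ _ => rfl⟩

lemma afs_zero : BW.T.Afs M (fun _ => 0) fun _ => 0 :=
  ⟨fun _ _ => by simp, fun _ _ _ _ => by simp [Completion.coe_zero]⟩

lemma afs_add (h : BW.T.Afs M X X') (h' : BW.T.Afs M Y Y') :
    BW.T.Afs M (fun v => X v + Y v) fun v => X' v + Y' v :=
  ⟨fun v w => by rw [inner_add_left, inner_add_right, h.1, h'.1], fun Z hZ v w => by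
    rw [Completion.coe_add, Completion.coe_add, map_add, inner_add_left, inner_add_right,
      h.2 Z hZ, h'.2 Z hZ]⟩

lemma afs_smul (c : ℂ) (h : BW.T.Afs M X X') :
    BW.T.Afs M (fun v => c • X v) fun v => star c • X' v :=
  ⟨fun v w => by rw [inner_smul_left, inner_smul_right, h.1]; rfl, fun Z hZ v w => by
    rw [Completion.coe_smul, Completion.coe_smul, map_smul, inner_smul_left, inner_smul_right,
      h.2 Z hZ]
    simp⟩

lemma afs_comp (h : BW.T.Afs M X X') (h' : BW.T.Afs M Y Y') :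
    BW.T.Afs M (fun v => X (Y v)) fun v => Y' (X' v) :=
  ⟨fun v w => by rw [h.1, h'.1], fun Z hZ v w => by rw [h'.2 Z hZ, h.2 Z hZ]⟩

lemma afs_sum {ι : Type*} (t : Finset ι) {X X' : ι → D → D} (h : ∀ i, BW.T.Afs M (X i) (X' i)) :
    BW.T.Afs M (fun v => ∑ i ∈ t, X i v) fun v => ∑ i ∈ t, X' i v := by
  classical
  induction t using Finset.induction_on with
  | empty => simpa using afs_zero
  | insert i t hi ih => simpa only [Finset.sum_insert hi] using afs_add (h i) ih

variable {N : Set V → VonNeumannAlgebra (Completion D)}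

lemma afs_T (hN : LNm Q A N) (hT : Q.IsStress T) (m n : Ix) {O : Set V} {f : Fn} (hf : In O f) :
    BW.T.Afs (N O) (T m n f) (T m n (bar f)) :=
  afs_of_aff (fun v w => hT.herm m n f v w hf.1) (hN.fld O _ f (T_fld hT m n) hf)

lemma afft (hN : LNm Q A N) (hT : Q.IsStress T) {O : Set V} {F : Ix → Ix → Fn}
    (hF : ∀ m n, In O (F m n)) : BW.T.Afs (N O) (fun v => ∑ m, ∑ n, T m n (F m n) v)
      fun v => ∑ m, ∑ n, T m n (bar (F m n)) v :=
  afs_sum _ fun m => afs_sum _ fun n => afs_T hN hT m n (hF m n)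

lemma affh (hN : LNm Q A N) (hT : Q.IsStress T) {O : Set V} {f : Fn} (hf : In O f) :
    BW.T.Afs (N O) (GF.tr T f) (GF.tr T (bar f)) := by
  have h := afs_sum Finset.univ fun m => afs_smul (eta m : ℂ) (afs_T hN hT m m hf)
  simp only [Complex.star_def, Complex.conj_ofReal] at h
  exact h

lemma affa (hN : LNm Q A N) {O : Set V} (h : Al Q O X X') : BW.T.Afs (N O) X X' := by
  induction h with
  | one => exact afs_one
  | add X X' Y Y' _ _ h1 h2 => exact afs_add h1 h2
  | smul c X X' _ h1 => exact afs_smul c h1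
  | fld B B' g X X' hB _ hadj hg _ h1 =>
    exact afs_comp (afs_of_aff (fun v w => hadj g v w hg.1) (hN.fld O B g hB hg)) h1

end Vale.Agent.P352X.Grp

end
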