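import Vale.Agent.P352X.R.Br

/-!
# P352X, row GRP: similitudes and their point maps
-/

set_option linter.all false

noncomputable section

open MeasureTheory Filter Topology Set

namespace Vale.Agent.P352X.Grp

open Vale.Agent.P352 Vale.Agent.P352.GF Vale.Agent.P352.BW
open Vale.Agent.P352.H246 Vale.Agent.P352.H496 Vale.Agent.P352.H755 Vale.Agent.P352.H15
open UniformSpace (Completion)
open Br

/-! ### null coordinates -/

lemma al_add (x y : V) : al (x + y) = al x + al y := md_add _ _ _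
lemma be_add (x y : V) : be (x + y) = be x + be y := md_add _ _ _
lemma al_sub (x y : V) : al (x - y) = al x - al y := md_sub _ _ _
lemma be_sub (x y : V) : be (x - y) = be x - be y := md_sub _ _ _
lemma al_smul (t : ℝ) (x : V) : al (t • x) = t * al x := md_smul _ _ _
lemma be_smul (t : ℝ) (x : V) : be (t • x) = t * be x := md_smul _ _ _
lemma tx_add (x y : V) : tx (x + y) = tx x + tx y := by
  funext i
  fin_cases i <;> simp [tx]
lemma tx_sub (x y : V) : tx (x - y) = tx x - tx y := by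
  funext i
  fin_cases i <;> simp [tx]
lemma tx_smul (t : ℝ) (x : V) : tx (t • x) = t • tx x := by
  funext i
  fin_cases i <;> simp [tx]
lemma al_va : al va = 1 := by rw [va_pt, al_pt']
lemma be_va : be va = 0 := by rw [va_pt, be_pt']
lemma tx_va : tx va = 0 := by rw [va_pt, tx_pt']
lemma al_vb : al vb = 0 := by rw [vb_pt, al_pt']
lemma be_vb : be vb = 1 := by rw [vb_pt, be_pt']
lemma tx_vb : tx vb = 0 := by rw [vb_pt, tx_pt']
lemma al_tv (x : R2) : al (tv x) = 0 := al_pt' _ _ _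
lemma be_tv (x : R2) : be (tv x) = 0 := be_pt' _ _ _
lemma tx_tv (x : R2) : tx (tv x) = x := tx_pt' _ _ _

lemma vext {x y : V} (h1 : al x = al y) (h2 : be x = be y) (h3 : tx x 0 = tx y 0)
    (h4 : tx x 1 = tx y 1) : x = y := by
  have h5 : tx x = tx y := by
    funext i
    fin_cases i
    · exact h3
    · exact h4
  rw [← pt_self x, ← pt_self y, h1, h2, h5]

lemma md_va (z : V) : GF.mdot va z = be z := rfl
lemma md_vb (z : V) : GF.mdot vb z = al z := rfl

lemma na : IsNull va := fr.ha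
lemma nb : IsNull vb := fr.hb
lemma nab : GF.mdot va vb = 1 := be_vb

lemma va_tv (x : R2) : GF.mdot va (tv x) = 0 := be_tv x
lemma vb_tv (x : R2) : GF.mdot vb (tv x) = 0 := al_tv x

lemma sq_mul {r s : ℝ} (hr : 0 < r) : Real.sqrt (r * s) = Real.sqrt r * Real.sqrt s :=
  Real.sqrt_mul hr.le s

lemma sq_div {r s : ℝ} (hr : 0 < r) : Real.sqrt (r / s) = Real.sqrt r / Real.sqrt s :=
  Real.sqrt_div hr.le s

lemma lsc {r s : ℝ} (hr : 0 < r) (hs : 0 < s) :
    IsLor (bst va vb (Real.sqrt (r / s) - 1) (Real.sqrt (s / r) - 1)) ∧ ∀ z,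
      sim (Real.sqrt (r * s)) (bst va vb (Real.sqrt (r / s) - 1) (Real.sqrt (s / r) - 1)) 0 z =
        scp r s z := by
  have h1 := Real.sqrt_pos.2 hr
  have h2 := Real.sqrt_pos.2 hs
  have h3 := Real.mul_self_sqrt hr.le
  have h4 := Real.mul_self_sqrt hs.le
  refine ⟨isLor_bst na nb nab ?_ ?_, fun z => ?_⟩
  · rw [sq_div hr]
    have := div_pos h1 h2
    linarith
  · rw [sq_div hr, sq_div hs]
    field_simp
    ring
  · rw [sim_s, sim_bst, scp, sq_div hr, sq_div hs, sq_mul hr, md_va, md_vb]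
    apply vext <;> simp only [al_add, be_add, tx_add, al_smul, be_smul, tx_smul, al_va, be_va,
      tx_va, al_vb, be_vb, tx_vb, al_pt', be_pt', tx_pt', smul_zero, add_zero]
    · field_simp
      rw [← h3]
      simp only [Real.sqrt_mul_self h1.le]
      ring
    · field_simp
      rw [← h4]
      simp only [Real.sqrt_mul_self h2.le]
      ring

lemma lga (w : R2) : IsLor (H746.nrt va (tv ((1 / 2 : ℝ) • w))) ∧
    ∀ z, sim 1 (H746.nrt va (tv ((1 / 2 : ℝ) • w))) 0 z = gap w z := by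
  refine ⟨H746.isLor_nrt na (va_tv _), fun z => ?_⟩
  rw [H746.sim_nrt, gap, md_tv, md_tv, md_va, tx_tv]
  apply vext <;> simp only [al_add, be_add, tx_add, al_sub, be_sub, tx_sub, al_smul, be_smul,
    tx_smul, al_va, be_va, tx_va, al_tv, be_tv, tx_tv, al_pt', be_pt', tx_pt', smul_zero, add_zero,
    sub_zero, d2, Pi.smul_apply, Pi.add_apply, smul_eq_mul] <;> ring

lemma lgb (s : ℝ) : IsLor (H746.nrt vb (tv ((s / 2) • e2 0))) ∧
    ∀ z, sim 1 (H746.nrt vb (tv ((s / 2) • e2 0))) 0 z = gbp s z := by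
  refine ⟨H746.isLor_nrt nb (vb_tv _), fun z => ?_⟩
  have e0 : e2 0 0 = 1 := by simp [e2]
  have e1 : e2 0 1 = 0 := by simp [e2]
  rw [H746.sim_nrt, gbp, md_tv, md_tv, md_vb, tx_tv]
  apply vext <;> simp only [al_add, be_add, tx_add, al_sub, be_sub, tx_sub, al_smul, be_smul,
    tx_smul, al_vb, be_vb, tx_vb, al_tv, be_tv, tx_tv, al_pt', be_pt', tx_pt', smul_zero, add_zero,
    sub_zero, d2, Pi.smul_apply, Pi.add_apply, smul_eq_mul, e0, e1] <;> ring

/-! ### similitudes -/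

lemma sim_eq (s : ℝ) (L : Ix → V) (a x : V) : sim s L a x = a + s • sim 1 L 0 x := by
  funext n
  simp [sim]

lemma sim_zero (s : ℝ) (L : Ix → V) (a : V) : sim s L a 0 = a := by
  funext n
  simp [sim]

lemma sim_mul (s s' : ℝ) (L L' : Ix → V) (a a' x : V) :
    sim (s * s') (fun m => sim 1 L 0 (L' m)) (sim s L a a') x = sim s L a (sim s' L' a' x) := by
  rw [sim_eq (s * s'), sim_eq s L a a', sim_eq s L a, sim_eq s' L' a', Kin.sim_comp, simL_add,
    simL_smul, smul_add, smul_smul, add_assoc]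

lemma sim_inj {s s' : ℝ} {L L' : Ix → V} {a a' : V} (hs : 0 < s) (hs' : 0 < s') (hL : IsLor L)
    (hL' : IsLor L') (h : ∀ x, sim s L a x = sim s' L' a' x) : s = s' ∧ L = L' ∧ a = a' := by
  have ha : a = a' := by simpa only [sim_zero] using h 0
  subst ha
  have h1 : ∀ x, s • sim 1 L 0 x = s' • sim 1 L' 0 x := fun x => by
    have := h x
    rw [sim_eq s, sim_eq s'] at this
    exact add_left_cancel this
  have h2 : s = s' := by
    have h3 := congrArg (fun y => GF.mdot y y) (h1 (bas o 1))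
    simp only [md_smul, md_smul_l, md_LL hL, md_LL hL'] at h3
    have h4 : GF.mdot (bas o 1) (bas o 1) = 1 := by
      rw [md_bas]
      simp [eta, bas]
    rw [h4] at h3
    nlinarith
  subst h2
  exact ⟨rfl, Kin.mat_ext fun x => smul_right_injective V hs.ne' (h1 x), rfl⟩

variable {D : Type*} [NormedAddCommGroup D] [InnerProductSpace ℂ D] {Q : Theory D}
  {A : (V → V) → D → D}

lemma ug_mul (R : Rep Q A) {s s' : ℝ} {L L' : Ix → V} (a a' : V) (hs : 0 < s) (hs' : 0 < s')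
    (hL : IsLor L) (hL' : IsLor L') : Ug Q s L a * Ug Q s' L' a' =
      Ug Q (s * s') (fun m => sim 1 L 0 (L' m)) (sim s L a a') := by
  ext z
  rw [mul_apply_eq_comp, Ug_apply Q hs' hL', Ug_apply Q hs hL,
    Ug_apply Q (mul_pos hs hs') (ue_lor hL hL'), (ublock R).mul s L a s' L' a' z hs hs' hL hL']

lemma ug_one : Ug Q 1 GF.one 0 = 1 := by
  ext z
  rw [Ug_apply Q one_pos H496.isLor_one, Ue_one]
  rfl

/-- `U` implements the point map `g` -/
def Im (Q : Theory D) (U : Completion D →L[ℂ] Completion D) (g : V → V) : Prop :=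
  ∃ s L a, 0 < s ∧ IsLor L ∧ U = Ug Q s L a ∧ ∀ z, sim s L a z = g z

variable {U U' : Completion D →L[ℂ] Completion D} {g g' : V → V}

lemma Im.mul (R : Rep Q A) (h : Im Q U g) (h' : Im Q U' g') :
    Im Q (U * U') fun z => g (g' z) := by
  obtain ⟨s, L, a, hs, hL, rfl, e⟩ := h
  obtain ⟨s', L', a', hs', hL', rfl, e'⟩ := h'
  exact ⟨_, _, _, mul_pos hs hs', ue_lor hL hL', ug_mul R a a' hs hs' hL hL',
    fun z => by rw [sim_mul, e', e]⟩

lemma Im.ext (h : Im Q U g) (h' : Im Q U' g') (e0 : ∀ z, g z = g' z) : U = U' := by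
  obtain ⟨s, L, a, hs, hL, rfl, e⟩ := h
  obtain ⟨s', L', a', hs', hL', rfl, e'⟩ := h'
  obtain ⟨rfl, rfl, rfl⟩ := sim_inj hs hs' hL hL' fun x => by rw [e, e', e0]
  rfl

lemma im_ug (Q : Theory D) {s : ℝ} {L : Ix → V} (hs : 0 < s) (hL : IsLor L) (a : V) :
    Im Q (Ug Q s L a) (sim s L a) := ⟨s, L, a, hs, hL, rfl, fun _ => rfl⟩

lemma im_one (Q : Theory D) : Im Q 1 fun z => z :=
  ⟨1, GF.one, 0, one_pos, H496.isLor_one, ug_one.symm, H26.sim_one0⟩

lemma im_ut (Q : Theory D) (y : V) : Im Q (Ut Q y) fun z => z + y :=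
  ⟨1, GF.one, y, one_pos, H496.isLor_one, rfl, HM.sim_tr y⟩

lemma im_sc (Q : Theory D) {r s : ℝ} (hr : 0 < r) (hs : 0 < s) : Im Q (Usc Q r s) (scp r s) :=
  ⟨_, _, 0, Real.sqrt_pos.2 (mul_pos hr hs), (lsc hr hs).1, rfl, (lsc hr hs).2⟩

lemma im_ga (Q : Theory D) (w : R2) : Im Q (Ga Q w) (gap w) :=
  ⟨1, _, 0, one_pos, (lga w).1, rfl, (lga w).2⟩

lemma im_gb (Q : Theory D) (s : ℝ) : Im Q (Gb Q s) (gbp s) :=
  ⟨1, _, 0, one_pos, (lgb s).1, rfl, (lgb s).2⟩

/-! ### the relations -/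

lemma e00 : e2 0 0 = 1 := by simp [e2]
lemma e01 : e2 0 1 = 0 := by simp [e2]

lemma ut0 : Ut Q 0 = 1 := ug_one

lemma ut (R : Rep Q A) (x y : V) : Ut Q (x + y) = Ut Q x * Ut Q y :=
  (im_ut Q _).ext ((im_ut Q x).mul R (im_ut Q y)) fun z => by abel

lemma sc1 : Usc Q 1 1 = 1 := (im_sc Q one_pos one_pos).ext (im_one Q) fun z => by
  simp only [scp, one_mul, Real.sqrt_one, one_smul, pt_self]

lemma sc (R : Rep Q A) {r s r' s' : ℝ} (hr : 0 < r) (hs : 0 < s) (hr' : 0 < r') (hs' : 0 < s') :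
    Usc Q (r * r') (s * s') = Usc Q r s * Usc Q r' s' :=
  (im_sc Q (mul_pos hr hr') (mul_pos hs hs')).ext ((im_sc Q hr hs).mul R (im_sc Q hr' hs'))
    fun z => by
      have e : Real.sqrt (r * r' * (s * s')) = Real.sqrt (r * s) * Real.sqrt (r' * s') := by
        rw [← sq_mul (mul_pos hr hs)]
        congr 1
        ring
      simp only [scp, al_pt', be_pt', tx_pt', e, smul_smul]
      simp only [mul_assoc]

lemma ga0 : Ga Q 0 = 1 := (im_ga Q 0).ext (im_one Q) fun z => by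
  simp [gap, d2, pt_self]

lemma ga (R : Rep Q A) (v w : R2) : Ga Q (v + w) = Ga Q v * Ga Q w :=
  (im_ga Q _).ext ((im_ga Q v).mul R (im_ga Q w)) fun z => by
    apply vext <;> simp only [gap, al_pt', be_pt', tx_pt', d2, Pi.smul_apply, Pi.add_apply,
      smul_eq_mul] <;> ring

lemma gb0 : Gb Q 0 = 1 := (im_gb Q 0).ext (im_one Q) fun z => by
  simp [gbp, pt_self]

lemma gb (R : Rep Q A) (s t : ℝ) : Gb Q (s + t) = Gb Q s * Gb Q t :=
  (im_gb Q _).ext ((im_gb Q s).mul R (im_gb Q t)) fun z => by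
    apply vext <;> simp only [gbp, al_pt', be_pt', tx_pt', Pi.smul_apply, Pi.add_apply,
      smul_eq_mul, e00, e01] <;> ring

lemma sc_ut (R : Rep Q A) {r s : ℝ} (y : V) (hr : 0 < r) (hs : 0 < s) :
    Usc Q r s * Ut Q y = Ut Q (scp r s y) * Usc Q r s :=
  ((im_sc Q hr hs).mul R (im_ut Q y)).ext ((im_ut Q _).mul R (im_sc Q hr hs)) fun z => by
    apply vext <;> simp only [scp, al_add, be_add, tx_add, al_pt', be_pt', tx_pt', Pi.smul_apply,
      Pi.add_apply, smul_eq_mul] <;> ring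

lemma ga_ut (R : Rep Q A) (w : R2) (y : V) : Ga Q w * Ut Q y = Ut Q (gap w y) * Ga Q w :=
  ((im_ga Q w).mul R (im_ut Q y)).ext ((im_ut Q _).mul R (im_ga Q w)) fun z => by
    apply vext <;> simp only [gap, al_add, be_add, tx_add, al_pt', be_pt', tx_pt', Pi.smul_apply,
      Pi.add_apply, smul_eq_mul, d2] <;> ring

lemma gb_ut (R : Rep Q A) (s : ℝ) (y : V) : Gb Q s * Ut Q y = Ut Q (gbp s y) * Gb Q s :=
  ((im_gb Q s).mul R (im_ut Q y)).ext ((im_ut Q _).mul R (im_gb Q s)) fun z => by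
    apply vext <;> simp only [gbp, al_add, be_add, tx_add, al_pt', be_pt', tx_pt', Pi.smul_apply,
      Pi.add_apply, smul_eq_mul, e00, e01] <;> ring

lemma sc_ga (R : Rep Q A) {r s : ℝ} (w : R2) (hr : 0 < r) (hs : 0 < s) :
    Usc Q r s * Ga Q w = Ga Q (Real.sqrt (r / s) • w) * Usc Q r s :=
  ((im_sc Q hr hs).mul R (im_ga Q w)).ext ((im_ga Q _).mul R (im_sc Q hr hs)) fun z => by
    obtain ⟨ρ, h1, rfl⟩ : ∃ ρ, 0 < ρ ∧ r = ρ * ρ :=
      ⟨_, Real.sqrt_pos.2 hr, (Real.mul_self_sqrt hr.le).symm⟩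
    obtain ⟨σ, h2, rfl⟩ : ∃ σ, 0 < σ ∧ s = σ * σ :=
      ⟨_, Real.sqrt_pos.2 hs, (Real.mul_self_sqrt hs.le).symm⟩
    apply vext <;> simp only [scp, gap, al_pt', be_pt', tx_pt', Pi.smul_apply, Pi.add_apply,
      smul_eq_mul, d2, sq_mul hr, sq_div hr, Real.sqrt_mul_self h1.le,
      Real.sqrt_mul_self h2.le] <;> field_simp

lemma sc_gb (R : Rep Q A) {r s : ℝ} (t : ℝ) (hr : 0 < r) (hs : 0 < s) :
    Usc Q r s * Gb Q t = Gb Q (Real.sqrt (s / r) * t) * Usc Q r s :=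
  ((im_sc Q hr hs).mul R (im_gb Q t)).ext ((im_gb Q _).mul R (im_sc Q hr hs)) fun z => by
    obtain ⟨ρ, h1, rfl⟩ : ∃ ρ, 0 < ρ ∧ r = ρ * ρ :=
      ⟨_, Real.sqrt_pos.2 hr, (Real.mul_self_sqrt hr.le).symm⟩
    obtain ⟨σ, h2, rfl⟩ : ∃ σ, 0 < σ ∧ s = σ * σ :=
      ⟨_, Real.sqrt_pos.2 hs, (Real.mul_self_sqrt hs.le).symm⟩
    apply vext <;> simp only [scp, gbp, al_pt', be_pt', tx_pt', Pi.smul_apply, Pi.add_apply,
      smul_eq_mul, e00, e01, sq_mul hr, sq_div hs, Real.sqrt_mul_self h1.le,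
      Real.sqrt_mul_self h2.le] <;> field_simp

/-! ### unitarity -/

lemma ug_surj (R : Rep Q A) {s : ℝ} {L : Ix → V} (hs : 0 < s) (hL : IsLor L) (a : V) :
    Ug Q s L a * Ug Q s⁻¹ (linv L) (-(sim s⁻¹ (linv L) 0 a)) = 1 := by
  ext z
  rw [mul_apply_eq_comp, Ug_apply Q (inv_pos.2 hs) (isLor_linv hL), Ug_apply Q hs hL,
    ue_invC R hs hL]
  rfl

lemma uni_of {H : Type*} [NormedAddCommGroup H] [InnerProductSpace ℂ H] [CompleteSpace H]
    {U U' : H →L[ℂ] H} (h : ∀ z w, inner ℂ (U z) (U w) = inner ℂ z w) (h' : U * U' = 1) :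
    U ∈ unitary (H →L[ℂ] H) ∧ star U = U' := by
  have h1 : star U * U = 1 := by
    ext z
    refine ext_inner_left ℂ fun w => ?_
    rw [mul_apply_eq_comp, ContinuousLinearMap.star_eq_adjoint,
      ContinuousLinearMap.adjoint_inner_right, h]
    rfl
  have h2 : star U = U' := by rw [← mul_one (star U), ← h', ← mul_assoc, h1, one_mul]
  exact ⟨⟨h1, by rw [h2, h']⟩, h2⟩

lemma ug_inner {s : ℝ} {L : Ix → V} (hs : 0 < s) (hL : IsLor L) (a : V) (z w : Completion D) :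
    inner ℂ (Ug Q s L a z) (Ug Q s L a w) = inner ℂ z w := by
  rw [Ug_apply Q hs hL, Ug_apply Q hs hL, Kin.Ue_inner hs hL]

lemma ug_star (R : Rep Q A) {s : ℝ} {L : Ix → V} (hs : 0 < s) (hL : IsLor L) (a : V) :
    star (Ug Q s L a) = Ug Q s⁻¹ (linv L) (-(sim s⁻¹ (linv L) 0 a)) :=
  (uni_of (ug_inner hs hL a) (ug_surj R hs hL a)).2

lemma uni (R : Rep Q A) (s : ℝ) (L : Ix → V) (a : V) :
    Ug Q s L a ∈ unitary (Completion D →L[ℂ] Completion D) := by
  by_cases h : 0 < s ∧ IsLor L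
  · exact (uni_of (ug_inner h.1 h.2 a) (ug_surj R h.1 h.2 a)).1
  · rw [Ug, dif_neg h]
    exact one_mem _

lemma vac (R : Rep Q A) (s : ℝ) (L : Ix → V) (a : V) : Ug Q s L a (om Q) = om Q := by
  by_cases h : 0 < s ∧ IsLor L
  · rw [Ug_apply Q h.1 h.2, (ublock R).vac s L a h.1 h.2]
  · rw [Ug, dif_neg h]
    rfl

lemma coe {s : ℝ} {L : Ix → V} (hs : 0 < s) (hL : IsLor L) (a : V) (v : D) :
    Ug Q s L a v = (Q.U s L a v : D) := by rw [Ug_apply Q hs hL, ue_coe hs hL]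

/-! ### the net -/

variable {N : Set V → VonNeumannAlgebra (Completion D)}

lemma alg1 (h : LNm Q A N) {s : ℝ} {L : Ix → V} (hs : 0 < s) (hL : IsLor L) (a : V) {O : Set V}
    {X : Completion D →L[ℂ] Completion D} (hX : X ∈ N O) :
    Ug Q s L a * X * star (Ug Q s L a) ∈ N (sim s L a '' O) := by
  obtain ⟨Y, hY, e⟩ := h.cov s L a O X hX hs hL
  have e1 : Y * Ug Q s L a = Ug Q s L a * X := by
    ext z
    rw [mul_apply_eq_comp, mul_apply_eq_comp, Ug_apply Q hs hL, Ug_apply Q hs hL, e]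
  rw [← e1, mul_assoc, (uni h.toRep s L a).2, mul_one]
  exact hY

lemma alg (h : LNm Q A N) {s : ℝ} {L : Ix → V} (hs : 0 < s) (hL : IsLor L) (a : V) (O : Set V)
    (X : Completion D →L[ℂ] Completion D) :
    X ∈ N O ↔ Ug Q s L a * X * star (Ug Q s L a) ∈ N (sim s L a '' O) := by
  refine ⟨alg1 h hs hL a, fun hX => ?_⟩
  have h1 := alg1 h (inv_pos.2 hs) (isLor_linv hL) (-(sim s⁻¹ (linv L) 0 a)) hX
  have h2 := (uni h.toRep s L a).1
  rw [← ug_star h.toRep hs hL, star_star, ← mul_assoc, ← mul_assoc, h2, one_mul, mul_assoc, h2,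
    mul_one, image_image] at h1
  have h3 : ∀ x, sim s⁻¹ (linv L) (-(sim s⁻¹ (linv L) 0 a)) (sim s L a x) = x := by
    intro x
    rw [sim_eq s⁻¹, sim_eq s L, simL_add, simL_smul, sim_linv2 hL, sim_s s⁻¹, smul_add, smul_smul,
      inv_mul_cancel₀ hs.ne', one_smul]
    abel
  simpa only [h3, image_id'] using h1

/-! ### the null deformations -/

variable {S : V → ℝ → Completion D →L[ℂ] Completion D}

lemma S_uni (h : Grp0 Q N S) {a : V} (ha : IsNull a) (t : ℝ) :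
    S a t ∈ unitary (Completion D →L[ℂ] Completion D) :=
  (uni_of (U' := S a (-t)) (h.inn a t · · ha) (by rw [← h.add a _ _ ha, add_neg_cancel,
    h.zero a ha])).1

lemma sc_S (h : Grp0 Q N S) {r s : ℝ} (t : ℝ) (hr : 0 < r) (hs : 0 < s) :
    Usc Q r s * S va t = S va (t / s) * Usc Q r s := by
  ext z
  have h0 := Real.sqrt_pos.2 (mul_pos hr hs)
  have h1 := h.cov (Real.sqrt (r * s)) _ (Real.sqrt (r / s)) va va t z h0
    (Real.sqrt_pos.2 (div_pos hr hs)) (lsc hr hs).1 na na (by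
      rw [sim_bst, md_va, md_vb, al_va, be_va]
      module)
  have h2 : Real.sqrt (r / s) / Real.sqrt (r * s) * t = t / s := by
    have h3 := Real.sqrt_pos.2 hr
    have h4 := Real.sqrt_pos.2 hs
    rw [sq_div hr, sq_mul hr]
    field_simp
    rw [Real.sq_sqrt hs.le, mul_comm]
  rw [h2] at h1
  rw [mul_apply_eq_comp, mul_apply_eq_comp, Usc, Ug_apply Q h0 (lsc hr hs).1,
    Ug_apply Q h0 (lsc hr hs).1, h1]

lemma ga_S (h : Grp0 Q N S) (w : R2) (t : ℝ) : Ga Q w * S va t = S va t * Ga Q w := by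
  ext z
  have h1 := h.cov 1 _ 1 va va t z one_pos one_pos (lga w).1 na na (by
    rw [H746.nrt_fix na (va_tv _), one_smul])
  rw [div_one, one_mul] at h1
  rw [mul_apply_eq_comp, mul_apply_eq_comp, Ga, Ug_apply Q one_pos (lga w).1,
    Ug_apply Q one_pos (lga w).1, h1]

lemma pa_S (h : Grp1 Q N S) (s t : ℝ) : Pa Q s * S va t = S va t * Pa Q s := by
  ext z
  have h0 : GF.mdot va va = 0 := na.1
  have h1 := h.tra va (s • va) t GF.one z na (by rw [md_smul, h0, mul_zero]) H496.isLor_one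
    (fun x => by
      rw [H26.sim_one0, md_smul, md_smul_l, md_smul_l, h0]
      module)
  rw [md_smul, md_smul_l, h0] at h1
  simp only [mul_zero, zero_smul, sub_zero] at h1
  rw [mul_apply_eq_comp, mul_apply_eq_comp, Pa, Ut_apply, Ut_apply, h1]

lemma S_ut (R : Rep Q A) (h : Grp1 Q N S) (t : ℝ) (y : R2) : S va t * Ut Q (tv y) =
    Ut Q (tv y + (t * d2 y y) • va) * Ga Q ((2 * t) • y) * S va t := by
  ext z
  have e : (1 / 2 : ℝ) • (2 * t) • y = t • y := by
    rw [smul_smul]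
    congr 1
    ring
  have h1 := h.tra va (tv y) t _ z na (va_tv y) (lga ((2 * t) • y)).1 (fun x => by
    rw [H746.sim_nrt, e, tv_smul', md_smul, md_smul_l, md_smul_l]
    module)
  have h2 : Ut Q (tv y + (t * d2 y y) • va) * Ga Q ((2 * t) • y) =
      Ug Q 1 (H746.nrt va (tv ((1 / 2 : ℝ) • (2 * t) • y)))
        (tv y - (t * GF.mdot (tv y) (tv y)) • va) :=
    ((im_ut Q _).mul R (im_ga Q _)).ext (im_ug Q one_pos (lga _).1 _) fun x => by
      rw [HM.sim_at, (lga _).2, md_tv, tx_tv]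
      module
  rw [h2, mul_apply_eq_comp, mul_apply_eq_comp, Ut_apply, h1, Ug_apply Q one_pos (lga _).1]

end Vale.Agent.P352X.Grp

end
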